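import Vale.Agent.P249.R2.H445.Main
import Vale.Agent.P249.R2.H445.Low
import Vale.Agent.P249.R2.H411.Par
import Vale.Agent.P249.R2.H134.Sep
import Vale.Agent.P249.R2.H134.Low

/-!
# Dimension reduction in `L_p` for finite sets of bounded aspect ratio
-/

open MeasureTheory
open scoped ENNReal

namespace Vale.Agent.Results.P249.AspectRatio

/-- The aspect ratio of `X` is at most `Φ`: every distance is at most `Φ` times every nonzero
distance. -/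
def AspectLE {p : ℝ≥0∞} {Ω : Type} [MeasurableSpace Ω] {μ : Measure Ω} (X : Finset (Lp ℝ p μ))
    (Φ : ℝ) : Prop :=
  ∀ x ∈ X, ∀ y ∈ X, ∀ x' ∈ X, ∀ y' ∈ X, x' ≠ y' → ‖x - y‖ ≤ Φ * ‖x' - y'‖

/-- `X` has a map into `ℓ_p^d` of distortion at most `D`. -/
def Embeds {p : ℝ≥0∞} [Fact (1 ≤ p)] {Ω : Type} [MeasurableSpace Ω] {μ : Measure Ω}
    (X : Finset (Lp ℝ p μ)) (d : ℕ) (D : ℝ) : Prop :=
  ∃ f : Lp ℝ p μ → PiLp p (fun _ : Fin d => ℝ), ∃ s : ℝ, 0 < s ∧ ∀ x ∈ X, ∀ y ∈ X,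
    s * ‖x - y‖ ≤ ‖f x - f y‖ ∧ ‖f x - f y‖ ≤ D * s * ‖x - y‖

theorem result (p : ℝ≥0∞) [Fact (1 ≤ p)] (hp : p ≠ ∞) :
    -- (1) every `X ⊆ L_p(μ)` with at most `n` points and aspect ratio at most `Φ` embeds into
    -- `ℓ_p^d` with distortion `1 + ε` and `d ≤ exp (C / ε) (Φ (1 + log n)) ^ C`
    (∃ C : ℝ, 0 < C ∧ ∀ n : ℕ, 2 ≤ n → ∀ Φ : ℝ, 1 ≤ Φ → ∀ ε : ℝ, 0 < ε → ε ≤ 1 →
      ∀ (Ω : Type) [MeasurableSpace Ω] (μ : Measure Ω) (X : Finset (Lp ℝ p μ)), X.card ≤ n →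
        AspectLE X Φ →
        ∃ d : ℕ, (d : ℝ) ≤ Real.exp (C / ε) * (Φ * (1 + Real.log n)) ^ C ∧
          Embeds X d (1 + ε)) ∧
    ∀ D : ℝ, 1 ≤ D → ∃ c : ℝ, 0 < c ∧
      -- (2) for all `k ≥ 1` there are at most `2 k ^ k` points of an `L_p(μ)` of aspect ratio at
      -- most `2 k ^ (3 / 2)` which need dimension at least `c k ^ (p / 2)` at distortion `D`
      (∀ k : ℕ, 0 < k →
        ∃ (Ω : Type) (_ : MeasurableSpace Ω) (μ : Measure Ω) (X : Finset (Lp ℝ p μ)),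
          X.card ≤ 2 * k ^ k ∧ AspectLE X (2 * (k : ℝ) ^ (3 / 2 : ℝ)) ∧
          ∀ d : ℕ, Embeds X d D → c * (k : ℝ) ^ (p.toReal / 2) ≤ d) ∧
      -- (3) the same in terms of `n`: aspect ratio at most `2 (1 + log n) ^ 2` and dimension at
      -- least `c (log n / log log n) ^ (p / 2)`
      (∀ n : ℕ, 3 ≤ n →
        ∃ (Ω : Type) (_ : MeasurableSpace Ω) (μ : Measure Ω) (X : Finset (Lp ℝ p μ)),
          2 ≤ X.card ∧ X.card ≤ n ∧ AspectLE X (2 * (1 + Real.log n) ^ 2) ∧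
          ∀ d : ℕ, Embeds X d D →
            c * (Real.log n / Real.log (Real.log n)) ^ (p.toReal / 2) ≤ d) := by
  refine ⟨?_, fun D hD => ?_⟩
  · obtain ⟨C, hC, h⟩ := Vale.Agent.P249.H445.aspect Vale.Agent.P249.R2.H411.par p hp
    refine ⟨C, hC, fun n hn Φ hΦ ε hε hε1 Ω _ μ X hX hasp => ?_⟩
    obtain ⟨d, f, hd, hf⟩ := h n hn Φ hΦ ε hε hε1 Ω μ X hX hasp
    exact ⟨d, hd, f, hf⟩
  · obtain ⟨c₁, hc₁, h₁⟩ := Vale.Agent.P249.H445.low_grid Vale.Agent.P249.H134.sep p hp D hD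
    obtain ⟨c₂, hc₂, h₂⟩ := Vale.Agent.P249.H134.low Vale.Agent.P249.H134.sep p hp D hD
    refine ⟨min c₁ c₂, lt_min hc₁ hc₂, fun k hk => ?_, fun n hn => ?_⟩
    · obtain ⟨Ω, i, μ, X, hX, ha, hlow⟩ := h₁ k hk
      refine ⟨Ω, i, μ, X, hX, ha, fun d hd => ?_⟩
      obtain ⟨f, hf⟩ := hd
      refine le_trans ?_ (hlow d f hf)
      exact mul_le_mul_of_nonneg_right (min_le_left _ _) (Real.rpow_nonneg (Nat.cast_nonneg k) _)
    · obtain ⟨Ω, i, μ, X, hX2, hX, ha, hlow⟩ := h₂ n hn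
      refine ⟨Ω, i, μ, X, hX2, hX, ha, fun d hd => ?_⟩
      obtain ⟨f, hf⟩ := hd
      have h3 := hlow d f hf
      have hn3 : (3 : ℝ) ≤ n := by exact_mod_cast hn
      have hlog : 1 ≤ Real.log n := by
        rw [Real.le_log_iff_exp_le (by linarith only [hn3])]
        linarith only [Real.exp_one_lt_d9, hn3]
      refine le_trans ?_ h3
      exact mul_le_mul_of_nonneg_right (min_le_right _ _)
        (Real.rpow_nonneg (div_nonneg (by linarith only [hlog]) (Real.log_nonneg hlog)) _)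

end Vale.Agent.Results.P249.AspectRatio
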