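import Vale.Agent.P249.R2.H445.FinU
import Vale.Agent.P249.R2.H411.Par

/-!
# Dimension reduction in `L_p`: the endpoint exponents
-/

open MeasureTheory
open scoped ENNReal

namespace Vale.Agent.Results.P249.EndpointExponents

/-- `X` has a map into `ℓ_p^d` of distortion at most `D`. -/
def Embeds {p : ℝ≥0∞} [Fact (1 ≤ p)] {Ω : Type} [MeasurableSpace Ω] {μ : Measure Ω}
    (X : Finset (Lp ℝ p μ)) (d : ℕ) (D : ℝ) : Prop :=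
  ∃ f : Lp ℝ p μ → PiLp p (fun _ : Fin d => ℝ), ∃ s : ℝ, 0 < s ∧ ∀ x ∈ X, ∀ y ∈ X,
    s * ‖x - y‖ ≤ ‖f x - f y‖ ∧ ‖f x - f y‖ ≤ D * s * ‖x - y‖

theorem result (p : ℝ≥0∞) [Fact (1 ≤ p)] (hp : p ≠ ∞) :
    -- every `X ⊆ L_p(μ)` with at most `n` points embeds into `ℓ_p^d` with distortion `1 + ε`, where
    ∃ C : ℝ, 0 < C ∧ ∀ n : ℕ, 2 ≤ n → ∀ ε : ℝ, 0 < ε → ε ≤ 1 →
      ∀ (Ω : Type) [MeasurableSpace Ω] (μ : Measure Ω) (X : Finset (Lp ℝ p μ)), X.card ≤ n →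
        -- `d ≤ exp (C (1 + log n) ^ (1 / p) / ε)` for `p ≤ 2`
        (p ≤ 2 → ∃ d : ℕ, (d : ℝ) ≤ Real.exp (C * (1 + Real.log n) ^ (1 / p.toReal) / ε) ∧
          Embeds X d (1 + ε)) ∧
        -- `d ≤ exp (C (1 + log n) ^ (1 / 2) (1 + log (1 + log n)) ^ (1 / p) / ε)` for `p > 2`
        (2 < p → ∃ d : ℕ, (d : ℝ) ≤ Real.exp (C * ((1 + Real.log n) ^ (1 / 2 : ℝ) *
            (1 + Real.log (1 + Real.log n)) ^ (1 / p.toReal)) / ε) ∧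
          Embeds X d (1 + ε)) := by
  rcases le_or_gt p 2 with h2 | h2
  · obtain ⟨C, hC, h⟩ := Vale.Agent.P249.H445.all_le_two Vale.Agent.P249.R2.H411.par p h2
    refine ⟨C, hC, fun n hn ε hε hε1 Ω _ μ X hX => ⟨fun _ => ?_, fun h3 => absurd h3 (not_lt.2 h2)⟩⟩
    obtain ⟨d, f, hd, hf⟩ := h n hn ε hε hε1 Ω μ X hX
    exact ⟨d, hd, f, hf⟩
  · obtain ⟨C, hC, h⟩ := Vale.Agent.P249.H445.all_gt_two Vale.Agent.P249.R2.H411.par p h2 hp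
    refine ⟨C, hC, fun n hn ε hε hε1 Ω _ μ X hX => ⟨fun h3 => absurd h2 (not_lt.2 h3), fun _ => ?_⟩⟩
    obtain ⟨d, f, hd, hf⟩ := h n hn ε hε hε1 Ω μ X hX
    exact ⟨d, hd, f, hf⟩

end Vale.Agent.Results.P249.EndpointExponents
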